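import Vale.Agent.P363.Two.Slices

/-!
Potentials with Coulomb singularities at finitely many points lie in `L^{3/2} + L^∞`, and a density
is determined up to null sets.
-/

noncomputable section

open MeasureTheory Set Filter Topology Metric
open scoped ENNReal

namespace Vale.Agent.P363

open Two (U measurable_U one_le_U)

lemma integrableOn_rpow_dist (c : R3) (r : ℝ) :
    IntegrableOn (fun y : R3 => (‖y - c‖⁻¹) ^ (3 / 2 : ℝ)) (ball c r) := by
  have h0 : IntegrableOn (fun y : R3 => (‖y‖⁻¹) ^ (3 / 2 : ℝ)) (ball 0 r) := by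
    refine (integrableOn_fun_norm_addHaar volume (f := fun s : ℝ => (s⁻¹) ^ (3 / 2 : ℝ))).2 ?_
    have : Module.finrank ℝ R3 = 3 := by simp
    rw [this]
    refine ((Real.continuous_sqrt.integrableOn_Icc (a := (0 : ℝ)) (b := r)).mono_set
      Ioo_subset_Icc_self).congr_fun (fun s hs => ?_) measurableSet_Ioo
    have h1 : (0 : ℝ) < s := hs.1
    change √s = s ^ (3 - 1) • (s⁻¹) ^ (3 / 2 : ℝ)
    rw [smul_eq_mul, Real.inv_rpow h1.le, ← Real.rpow_neg h1.le, ← Real.rpow_natCast,
      ← Real.rpow_add h1, Real.sqrt_eq_rpow]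
    norm_num
  have hp := (measurePreserving_sub_right volume c).integrableOn_comp_preimage
    (MeasurableEquiv.subRight c).measurableEmbedding
    (f := fun y : R3 => (‖y‖⁻¹) ^ (3 / 2 : ℝ)) (s := ball 0 r)
  refine (hp.2 h0).congr_set_ae (Eventually.of_forall fun y => propext ?_)
  change dist y c < r ↔ dist (y - c) 0 < r
  rw [dist_zero_right, dist_eq_norm]

/-- A potential bounded by `K (1 + ∑ 1/‖x - R_j‖)` is of class `L^{3/2} + L^∞`. -/
theorem inClassV_of_bound {M : ℕ} {R : Fin M → R3} {v : R3 → ℝ} {K : ℝ} (hm : Measurable v)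
    (hK : 0 ≤ K) (hb : ∀ x, |v x| ≤ K * U R x) : InClassV v := by
  obtain ⟨r, hr⟩ : ∃ r, ∀ j, ‖R j‖ + 1 ≤ r :=
    ⟨∑ j, (‖R j‖ + 1), fun j => Finset.single_le_sum (f := fun l => ‖R l‖ + 1)
      (fun l _ => by positivity) (Finset.mem_univ j)⟩
  set S : Set R3 := ball 0 r
  refine ⟨S.indicator v, Sᶜ.indicator v, ?_, ?_, (S.indicator_self_add_compl v).symm⟩
  · have hp : (ENNReal.ofReal (3 / 2)) ≠ 0 := by simp
    have h1 : MemLp (S.indicator fun _ : R3 => (1 : ℝ)) (ENNReal.ofReal (3 / 2)) :=
      memLp_indicator_const _ measurableSet_ball 1 (Or.inr measure_ball_lt_top.ne)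
    have h2 : ∀ j, MemLp (S.indicator fun y : R3 => ‖y - R j‖⁻¹) (ENNReal.ofReal (3 / 2)) := by
      intro j
      have hmj : AEStronglyMeasurable fun y : R3 => ‖y - R j‖⁻¹ :=
        (by fun_prop : Measurable fun y : R3 => ‖y - R j‖⁻¹).aestronglyMeasurable
      rw [memLp_indicator_iff_restrict measurableSet_ball,
        ← integrable_norm_rpow_iff hmj.restrict hp ENNReal.ofReal_ne_top]
      refine ((integrableOn_rpow_dist (R j) (r + ‖R j‖)).mono_set fun y hy => ?_).congr
        (Eventually.of_forall fun y => by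
          rw [ENNReal.toReal_ofReal (by norm_num)]; simp)
      rw [mem_ball, dist_eq_norm]
      rw [mem_ball, dist_zero_right] at hy
      exact (norm_sub_le _ _).trans_lt (by linarith)
    have h3 := memLp_finsetSum (s := Finset.univ) fun j _ => h2 j
    have hg : MemLp (fun x => K * ((S.indicator (fun _ => (1 : ℝ)) x) +
        ∑ j, S.indicator (fun y => ‖y - R j‖⁻¹) x)) (ENNReal.ofReal (3 / 2)) :=
      (h1.add h3).const_mul K
    refine hg.mono (hm.indicator measurableSet_ball).aestronglyMeasurable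
      (Eventually.of_forall fun x => ?_)
    simp only [Real.norm_eq_abs]
    by_cases hx : x ∈ S
    · simp only [indicator_of_mem hx]
      exact (hb x).trans (le_abs_self _)
    · simp [indicator_of_notMem hx]
  · refine memLp_top_of_bound (hm.indicator measurableSet_ball.compl).aestronglyMeasurable
      (K * (1 + M)) (Eventually.of_forall fun x => ?_)
    by_cases hx : x ∈ Sᶜ
    · rw [indicator_of_mem hx, Real.norm_eq_abs]
      refine (hb x).trans (mul_le_mul_of_nonneg_left (add_le_add le_rfl ?_) hK)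
      rw [mem_compl_iff, mem_ball, dist_zero_right, not_lt] at hx
      refine (Finset.sum_le_sum (g := fun _ => (1 : ℝ)) fun j _ => inv_le_one_of_one_le₀ ?_).trans
        (by simp)
      have := hr j
      have := norm_sub_norm_le x (R j)
      linarith
    · rw [indicator_of_notMem hx, norm_zero]
      positivity

lemma hasDensity_unique {N : ℕ} {Ψ : Wave N} {n n' : R3 → ℝ} (h : HasDensity Ψ n)
    (h' : HasDensity Ψ n') : n =ᵐ[volume] n' :=
  h.1.ae_eq_of_forall_setIntegral_eq _ _ h'.1 fun B hB _ => (h.2 B hB).trans (h'.2 B hB).symm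

lemma representable_congr {N : ℕ} {n n' : R3 → ℝ} (h : EnsembleRepresentable N n)
    (he : n =ᵐ[volume] n') : EnsembleRepresentable N n' := by
  obtain ⟨v, hv, m, p, Φ, d, h1, h2, h3, h4, h5⟩ := h
  refine ⟨v, hv, m, p, Φ, d, h1, h2, h3, h4, ?_⟩
  filter_upwards [h5, he] with x hx hx'
  rw [← hx', hx]

lemma representable_of_pure {N : ℕ} {v n : R3 → ℝ} {Φ : Wave N} (hv : InClassV v)
    (h : IsGroundState (sumPot v) Φ) (hn : HasDensity Φ n) : EnsembleRepresentable N n :=
  ⟨v, hv, 1, fun _ => 1, fun _ => Φ, fun _ => n, fun _ => zero_le_one, by simp, fun _ => h,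
    fun _ => hn, Eventually.of_forall fun x => by simp⟩

end Vale.Agent.P363
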