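import Mathlib

/-!
Definitions for P363: electrons in `ℝ³` with spin `1/2`, weak derivatives, form ground states,
one-body densities and noninteracting ensemble representability.
-/

noncomputable section

open MeasureTheory Real
open scoped ENNReal

namespace Vale.Agent.P363

/-- Physical space. -/
abbrev R3 := EuclideanSpace ℝ (Fin 3)

/-- Configurations of `N` electrons. -/
abbrev Cfg (N : ℕ) := Fin N → R3

/-- The unit vector moving electron `i` along axis `k`. -/
def dir {N : ℕ} (i : Fin N) (k : Fin 3) : Cfg N := Pi.single i (EuclideanSpace.single k 1)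

/-- A smooth compactly supported function. -/
def IsTest {X : Type*} [NormedAddCommGroup X] [NormedSpace ℝ X] (η : X → ℝ) : Prop :=
  ContDiff ℝ (⊤ : ℕ∞) η ∧ HasCompactSupport η

/-- `g` is the weak derivative of `f` along the direction `e`. -/
def WeakDeriv {X : Type*} [NormedAddCommGroup X] [NormedSpace ℝ X] [MeasureSpace X]
    {F : Type*} [NormedAddCommGroup F] [NormedSpace ℝ F] (e : X) (f g : X → F) : Prop :=
  ∀ η : X → ℝ, IsTest η → ∫ x, fderiv ℝ η x e • f x = -∫ x, η x • g x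

/-- A wave function: a complex function of positions and spins. -/
abbrev Wave (N : ℕ) := (Fin N → Fin 2) → Cfg N → ℂ

/-- A candidate gradient of a wave function. -/
abbrev Grad (N : ℕ) := (Fin N → Fin 2) → Fin N → Fin 3 → Cfg N → ℂ

/-- Fermionic antisymmetry under exchange of positions together with spins. -/
def Antisymmetric {N : ℕ} (Ψ : Wave N) : Prop :=
  ∀ (τ : Equiv.Perm (Fin N)) (s : Fin N → Fin 2),
    ∀ᵐ X : Cfg N, Ψ (fun i => s (τ i)) (fun i => X (τ i)) = ((τ.sign : ℤ) : ℂ) * Ψ s X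

/-- Membership in the form domain of the potential `V`, with the weak gradient `G`. -/
structure InDomain {N : ℕ} (V : Cfg N → ℝ) (Ψ : Wave N) (G : Grad N) : Prop where
  antisym : Antisymmetric Ψ
  memLp : ∀ s, MemLp (Ψ s) 2
  memLpGrad : ∀ s i k, MemLp (G s i k) 2
  weak : ∀ s i k, WeakDeriv (dir i k) (Ψ s) (G s i k)
  potential : ∀ s, Integrable fun X => V X * ‖Ψ s X‖ ^ 2

/-- The squared norm of a wave function. -/
def normSq {N : ℕ} (Ψ : Wave N) : ℝ := ∑ s, ∫ X, ‖Ψ s X‖ ^ 2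

/-- The quadratic form of `-(1/2) Δ + V`. -/
def energy {N : ℕ} (V : Cfg N → ℝ) (Ψ : Wave N) (G : Grad N) : ℝ :=
  ∑ s, ((∑ i, ∑ k, (1 / 2 : ℝ) * ∫ X, ‖G s i k X‖ ^ 2) + ∫ X, V X * ‖Ψ s X‖ ^ 2)

/-- A normalised ground state: a minimiser of the quadratic form. -/
def IsGroundState {N : ℕ} (V : Cfg N → ℝ) (Ψ : Wave N) : Prop :=
  ∃ G : Grad N, InDomain V Ψ G ∧ normSq Ψ = 1 ∧
    ∀ (Φ : Wave N) (H : Grad N), InDomain V Φ H →
      energy V Ψ G * normSq Φ ≤ energy V Φ H

/-- `n` is the spin-summed one-body density of `Ψ`. -/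
def HasDensity {N : ℕ} (Ψ : Wave N) (n : R3 → ℝ) : Prop :=
  Integrable n ∧ ∀ B : Set R3, MeasurableSet B →
    ∫ x in B, n x = ∑ i, ∑ s, ∫ X in {X : Cfg N | X i ∈ B}, ‖Ψ s X‖ ^ 2

/-- The class `L^{3/2} + L^∞` of one-body potentials. -/
def InClassV (v : R3 → ℝ) : Prop :=
  ∃ a b : R3 → ℝ, MemLp a (ENNReal.ofReal (3 / 2)) ∧ MemLp b ⊤ ∧ v = a + b

/-- The noninteracting potential with one-body potential `v`. -/
def sumPot {N : ℕ} (v : R3 → ℝ) (X : Cfg N) : ℝ := ∑ i, v (X i)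

/-- `n` is noninteracting ensemble representable: for one `v` in `L^{3/2} + L^∞` it is the density
of a mixture of ground states of the noninteracting Hamiltonian. -/
def EnsembleRepresentable (N : ℕ) (n : R3 → ℝ) : Prop :=
  ∃ (v : R3 → ℝ), InClassV v ∧ ∃ (m : ℕ) (p : Fin m → ℝ) (Φ : Fin m → Wave N)
    (d : Fin m → R3 → ℝ), (∀ j, 0 ≤ p j) ∧ ∑ j, p j = 1 ∧
      (∀ j, IsGroundState (sumPot v) (Φ j)) ∧ (∀ j, HasDensity (Φ j) (d j)) ∧
      ∀ᵐ x, n x = ∑ j, p j * d j x

/-- The Coulomb potential of a molecule with nuclei of charges `Z` at `R`. -/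
def molecule {N M : ℕ} (Z : Fin M → ℕ) (R : Fin M → R3) (X : Cfg N) : ℝ :=
  (∑ i, -∑ j, (Z j : ℝ) / ‖X i - R j‖) +
    ∑ i, ∑ l ∈ Finset.univ.filter fun l => i < l, 1 / ‖X i - X l‖

end Vale.Agent.P363
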