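import Vale.Agent.P363.ClassV

/-!
One electron: the molecular potential itself is the representing potential.
-/

noncomputable section

open MeasureTheory Set Filter Topology
open scoped ENNReal

namespace Vale.Agent.P363

variable {M : ℕ} {Z : Fin M → ℕ} {R : Fin M → R3}

/-- The attraction of the nuclei. -/
def nuclear (Z : Fin M → ℕ) (R : Fin M → R3) (x : R3) : ℝ := -∑ j, (Z j : ℝ) / ‖x - R j‖

lemma molecule_one : (molecule Z R : Cfg 1 → ℝ) = sumPot (nuclear Z R) := by
  funext X
  simp [molecule, sumPot, nuclear, Finset.filter_singleton]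

theorem one_electron {Ψ : Wave 1} (h : IsGroundState (molecule Z R) Ψ) :
    ∃ n, HasDensity Ψ n ∧ EnsembleRepresentable 1 n := by
  set c : R3 → Cfg 1 := fun x _ => x
  have hc : MeasurePreserving c := by
    have := (volume_preserving_funUnique (Fin 1) R3).symm
    exact this
  have hce : MeasurableEmbedding c :=
    (MeasurableEquiv.funUnique (Fin 1) R3).symm.measurableEmbedding
  obtain ⟨G, hG, hnorm, hmin⟩ := id h
  set n : R3 → ℝ := fun x => ∑ s, ‖Ψ s (c x)‖ ^ 2
  have hi : ∀ s, Integrable fun x => ‖Ψ s (c x)‖ ^ 2 := fun s =>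
    (hc.integrable_comp_emb hce).2
      ((memLp_two_iff_integrable_sq_norm (hG.memLp s).aestronglyMeasurable).1 (hG.memLp s))
  have hn : HasDensity Ψ n := by
    refine ⟨integrable_finsetSum _ fun s _ => hi s, fun B hB => ?_⟩
    rw [integral_finsetSum _ fun s _ => (hi s).integrableOn, Fin.sum_univ_one]
    refine Finset.sum_congr rfl fun s _ => ?_
    rw [← hc.setIntegral_preimage_emb hce (fun X => ‖Ψ s X‖ ^ 2) {X : Cfg 1 | X 0 ∈ B}]
    rfl
  refine ⟨n, hn, representable_of_pure (inClassV_of_bound (R := R) (K := ∑ j, (Z j : ℝ))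
    ?_ (by positivity) fun x => ?_) (molecule_one (Z := Z) (R := R) ▸ h) hn⟩
  · exact (Finset.measurable_sum _ fun j _ => by fun_prop).neg
  · rw [nuclear, abs_neg, abs_of_nonneg (by positivity), Two.U, mul_add, mul_one, Finset.mul_sum]
    refine le_trans ?_ (le_add_of_nonneg_left (by positivity))
    refine Finset.sum_le_sum fun j hj => ?_
    rw [div_eq_mul_inv]
    exact mul_le_mul_of_nonneg_right
      (Finset.single_le_sum (f := fun l => (Z l : ℝ)) (fun l _ => Nat.cast_nonneg _) hj)
      (by positivity)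

end Vale.Agent.P363
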